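import Mathlib

/-! Definitions used in the statement of the factoring theorem. -/

namespace Vale.Agent.P319.St

open Polynomial

/-- Code of a bit. -/
def bBool : Bool → List Bool
  | false => [false]
  | true => [true, false, false]

/-- Code of a pair. -/
def bPair {α β : Type} (f : α → List Bool) (g : β → List Bool) (p : α × β) : List Bool :=
  true :: (f p.1 ++ g p.2)

/-- Self-delimiting code of a list. -/
def bList {α : Type} (f : α → List Bool) : List α → List Bool
  | [] => [false]
  | a :: l => true :: (f a ++ bList f l)

/-- Code of a natural number: the list of its binary digits. -/
def bNat (n : ℕ) : List Bool := bList bBool n.bits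

/-- The polynomial over `ZMod p` with the given list of coefficients, constant term first. -/
noncomputable def poly (p : ℕ) (l : List ℕ) : (ZMod p)[X] :=
  ∑ i : Fin l.length, C ((l.get i : ℕ) : ZMod p) * X ^ (i : ℕ)

end Vale.Agent.P319.St
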